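import Crest.Agent.X212.Cys97.Defs
import Crest.Agent.X212.Ten12.Lft

/-!
# Row 212, CYS-ENG (helper12): the engine on the Hilbert fibre
-/

set_option autoImplicit false
set_option linter.unusedSectionVars false
set_option maxSynthPendingDepth 3
noncomputable section
open scoped Manifold ContDiff Topology InnerProductSpace
open MeasureTheory Set Function Filter

namespace Crest.Agent.X212.Eng12
open An Sob92 Prm93 Wz78 Mon62 Mon62.Dm Cyc79 Ten12
open Ell97 (UB)

variable {E : Type} [NormedAddCommGroup E] [NormedSpace ℝ E] [FiniteDimensional ℝ E]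
  [MeasurableSpace E] [BorelSpace E]
  {HM : Type} [TopologicalSpace HM] {I : ModelWithCorners ℝ E HM} [I.Boundaryless]
  {M : Type} [TopologicalSpace M] [ChartedSpace HM M] [IsManifold I ∞ M]
  [MeasurableSpace M] [T2Space M] [BorelSpace M] [SecondCountableTopology M] {ι : Type} [Fintype ι]
  {J : Type} {X Y : J → Type} [∀ i, NormedAddCommGroup (X i)] [∀ i, NormedSpace ℝ (X i)]
  {V : Type} [NormedAddCommGroup V] [InnerProductSpace ℝ V] [CompleteSpace V]
  {κ K : Type} [Fintype κ] [DecidableEq κ]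
  [NormedAddCommGroup K] [InnerProductSpace ℝ K] [CompleteSpace K]
  {D : Dm I M ι X Y} {G : ∀ i, X i → Fr I M ι} {ε : Prop} {j l : ℕ}

/-- the resolvent on the Hilbert fibre from the resolvent on the finite one -/
theorem exists_res_amp {P : Pre I M ι} {F : Fr I M ι} {A : ι → M → En κ}
    (hB : Mp86.Bumps I F.e F.dv) (hA : Mp86.Mc I A)
    (hE : ∀ s : M → Eu κ, P.Cb s → ∃ u, F.IsRes A s u ∧ P.Cb u) {s : M → Fm κ K} (hs : P.Cb s) :
    F.IsRes (aA K A) s (F.res (aA K A) s) ∧ P.Cb (F.res (aA K A) s) ∧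
      ∀ h z, ct h (F.res (aA K A) s z) = F.res A (fun x => ct h (s x)) z := by
  have e := fun h : K => hE _ (Cb_clm (ct h) hs)
  have e' := fun h : K => (e h).imp fun _ h => h.1
  obtain ⟨C, hC⟩ := cb_bdd hs
  let φ : M → K →L[ℝ] Eu κ := fun z => LinearMap.mkContinuous
    { toFun := fun h => F.res A (fun x => ct h (s x)) z
      map_add' := fun h h' => by
        rw [← congrFun (Mp86.res_add hB hA (e' h) (e' h')) z]
        exact congrArg (F.res A · z) (funext fun x => congrArg (· (s x)) ((ctL κ K).map_add h h'))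
      map_smul' := fun a h => by
        rw [RingHom.id_apply, ← congrFun (Mp86.res_smul hB hA a _) z]
        exact congrArg (F.res A · z) (funext fun x => congrArg (· (s x)) ((ctL κ K).map_smul a h)) }
    C fun h => Mp86.norm_res_le hB hA (fun x => (norm_ct_le h _).trans
      ((mul_le_mul_of_nonneg_left (hC x) (norm_nonneg h)).trans_eq (mul_comm _ _))) z
  have hφ : ∀ h, (fun z => ct h (rz κ K (φ z))) = F.res A fun x => ct h (s x) := fun h =>
    funext fun z => ct_rz _ h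
  have hc : P.Cb fun z => rz κ K (φ z) := cb_of_ct fun h => by
    obtain ⟨u, h1, h2⟩ := e h
    rwa [hφ, Mp86.res_eq hB hA h1]
  have hr : F.IsRes (aA K A) s fun z => rz κ K (φ z) :=
    isRes_of_ct hA.sm (cb_sm hc) (cb_bdd hc) fun h => hφ h ▸ Mp86.res_spec (e' h)
  rw [Mp86.res_eq (A := aA K A) hB ⟨sm_aA hA.sm, fun a x => skew_amp (hA.sk a x)⟩ hr]
  exact ⟨hr, hc, fun h z => congrFun (hφ h) z⟩

theorem sz_res_amp (hF : D.FF G) (hE : D.RE (Eu κ) G) (hI : Cys97.Inv D G)
    {A : ∀ i, Y i → ι → M → En κ} (hA : ∀ c, D.Sz fun i y => A i y c)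
    (hs : ∀ i y c x, Skew (A i y c x)) {s : ∀ i, Y i → M → Fm κ K} (h : D.Sz s) :
    (D.Sz fun i y => (G i (D.pt i y)).res (aA K (A i y)) (s i y)) ∧
      ∀ i y, (G i (D.pt i y)).IsRes (aA K (A i y)) (s i y)
        ((G i (D.pt i y)).res (aA K (A i y)) (s i y)) := by
  have r := fun i y => exists_res_amp (hF.bump i y) ⟨fun c => (hA c).sm i y, hs i y⟩
    (fun t => hE.ex i y (A i y) t (fun c => (hA c).cb i y) (hs i y)) (h.cb i y)
  refine ⟨⟨fun i y => (r i y).2.1, ?_⟩, fun i y => (r i y).1⟩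
  obtain ⟨S, hS, hm⟩ := hF.mix
  obtain ⟨S', hS', h'⟩ := hI
  have z := fun a b => ((hS a b).a0 4 le_rfl).sz
  have up : ∀ {N : Type} [NormedAddCommGroup N] [NormedSpace ℝ N] {f : J → M → N}, UB D.P f →
      UB (fun i => (G i (D.pt i (D.y₀ i))).toPre) f :=
    ub_mix (fun i => hm i _ (D.mem i _)) fun a b => (z a b).ub
  exact ub_mix (fun i => h' i _) (fun a b => up (hS' a b).ub) (ub_isRes
    (fun a b l => up ((hF.c a b l).a0 4 le_rfl).sz.ub) (fun a => up ((hF.dv a).a0 4 le_rfl).sz.ub)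
    (fun i => hF.bump i _) (fun a => up ((hA a).ub.clm (amp K)))
    (fun i a x => skew_amp (hs i _ a x)) (up h.ub) (fun i => (r i _).1)
    fun i => (hm i _ (D.mem i _)).Cb (fun a b => (z a b).cb i _) (r i _).2.1)

/-- the amplified resolvent operator -/
theorem exists_inv_amp (hF : D.FF G) (hB : D.RB (Eu κ) G) (hl : 4 ≤ l)
    {A : ∀ i, Y i → ι → M → En κ} (hA : ∀ c, D.Mul (l + 1) fun i y => A i y c)
    (hs : ∀ i y c x, Skew (A i y c x)) :
    ∃ R : ∀ i, X i → D.H (Fm κ K) l i →L[ℝ] D.H (Fm κ K) (l + 2) i, UC D.toRg R ∧ ∀ i y f x,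
      D.vl (R i (D.pt i y) f) x + lap I (G i (D.pt i y)).e (G i (D.pt i y)).dv (aA K (A i y))
        (D.vl (R i (D.pt i y) f)) x = D.vl f x := by
  obtain ⟨R, r1, r2⟩ := exists_inv hF hB hl hA hs
  refine ⟨fun i x => lft K (R i x), r1.clm ⟨1, fun _ => norm_lft⟩, fun i y f x => ?_⟩
  obtain ⟨S, s1, s2⟩ := hF.mix
  have hx := D.mem i y
  have q := fun {V : Type} [NormedAddCommGroup V] [InnerProductSpace ℝ V] [CompleteSpace V]
      {A : ι → M → V →L[ℝ] V} => val_QQ (A := A) (D.sup i) (s2 i _ hx) (fun a b => (s1 a b).us.cb i _ hx)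
      (fun c => (hF.dv c).us.cb i _ hx) hl
  have c := fun c => (hA c).sz.cb i y
  have e := lft_QQ (K := K) (act_mix (V := Eu κ) (s2 i _ hx) (fun a b => (s1 a b).us.cb i _ hx)
    fun c => (hF.dv c).us.cb i _ hx) (fun c => (D.P i).mulH l _ _ (A i y c),
      fun c => (D.P i).mulH (l + 1) _ _ (A i y c))
  have e' : lM K (fun c => (D.P i).mulH l _ _ (A i y c), fun c => (D.P i).mulH (l + 1) _ _ (A i y c))
      = (fun c => (D.P i).mulH l _ _ (aA K (A i y) c),
        fun c => (D.P i).mulH (l + 1) _ _ (aA K (A i y) c)) :=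
    Prod.ext (funext fun a => lft_mulH (c a)) (funext fun a => lft_mulH (c a))
  rw [vl, ← q (A := aA K (A i y)) (fun a => Cb_clm (amp K) (c a)), ← e', ← e]
  refine congrArg (fun u => (D.P i).val l _ u x) (ext_ctH fun h => ?_)
  rw [ctH_lft, ctH_lft]
  exact val_injective (D.sup i) hl (funext fun z => (q c _ z).trans (r2 i y _ z))

/-- the resolvent gains two derivatives: the abstract form -/
theorem res_of (hF : D.FF G) (hl : 4 ≤ l) {A : ∀ i, Y i → ι → M → V →L[ℝ] V}
    (hA : ∀ c, D.Mul (l + 1) fun i y => A i y c) (hs : ∀ i y c x, Skew (A i y c x))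
    {s : ∀ i, Y i → M → V} (h : D.A0 ε l s)
    (z1 : D.Sz fun i y => (G i (D.pt i y)).res (A i y) (s i y))
    (z2 : ∀ i y, (G i (D.pt i y)).IsRes (A i y) (s i y) ((G i (D.pt i y)).res (A i y) (s i y)))
    {R : ∀ i, X i → D.H V l i →L[ℝ] D.H V (l + 2) i} (r1 : UC D.toRg R) (r2 : ∀ i y f x,
      D.vl (R i (D.pt i y) f) x + lap I (G i (D.pt i y)).e (G i (D.pt i y)).dv (A i y)
        (D.vl (R i (D.pt i y) f)) x = D.vl f x) :
    D.A0 ε (l + 2) fun i y => (G i (D.pt i y)).res (A i y) (s i y) := by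
  have key : ∀ u : J → M → V, UB D.P u → (ε → ∀ i x, u i x = 0) → (D.A0 True l fun i y x =>
      s i y x - (u i x + lap I (G i (D.pt i y)).e (G i (D.pt i y)).dv (A i y) (u i) x)) →
      D.A0 ε (l + 2) fun i y => (G i (D.pt i y)).res (A i y) (s i y) := by
    intro u hu h0 hp
    obtain ⟨δ, d1, d2⟩ := hp.pure
    refine ⟨z1, u, _, hu, h0, r1.app d1, fun i y x => ?_⟩
    obtain ⟨e1, ⟨C, e2⟩, e3⟩ := z2 i y
    obtain ⟨C', hu⟩ := hu
    have mc := Mp86.Mc.mc (⟨fun c => (hA c).sz.sm i y, hs i y⟩ : Mp86.Mc I (A i y))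
    have vf := Mp86.vf (G i (D.pt i y)).toPre
    refine eq_add_of_sub_eq' (Mp86.eq_of_bdd (hF.bump i y) finite_empty (fun h => absurd h
      not_nonempty_empty) (C := C + C' 0 + √|D.C 0| * ‖R i (D.pt i y) (δ i (D.pt i y))‖)
      (u := fun x => (G i (D.pt i y)).res (A i y) (s i y) x - u i x) vf
      (fun _ h => h.elim) (fun _ h => h.elim) (fun x _ => mc x)
      (fun x _ => Mp86.cm2 (e1.sub (hu i).1) x)
      (fun x _ => contMDiff_val (n := 2) (D.sup i) (by omega) _ x) (fun x _ => ?_)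
      (fun x _ => ?_) x (notMem_empty x))
    · exact (norm_sub_le _ _).trans (add_le_add ((norm_sub_le _ _).trans (add_le_add (e2 x)
        (CB_bound ((hu i).2 0) x))) (norm_val_le (D.sup i) (by omega) _ x))
    · rw [Mp86.LA_sub (vf x) (mc x).sm (Mp86.cm2 e1 x) (Mp86.cm2 (hu i).1 x), Mp86.LA_eq_lap,
        Mp86.LA_eq_lap, Mp86.LA_eq_lap, sub_neg_eq_add _ (lap _ _ _ _ (Pre.val _ _ _ _) _),
        r2, ← congrFun (d2 i y) x, ← e3 x]
      abel
  by_cases e : ε
  · refine key (fun _ _ => 0) (UB.const 0) (fun _ _ _ => rfl) ((h.imp fun _ => e).congr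
      fun i y x => ?_)
    rw [show (fun _ => 0 : M → V) = 0 from rfl, Mp86.lap_zero, add_zero, sub_zero]
  · have h1 := A0.fixed (j := l + 2) z1.ub
    refine key _ z1.ub (fun h => absurd h e) ((h.aff.sub hl ((h1.lower hl (by omega)).add
      (h1.lap hF hl hA))).pure_of_base (A0.zero.congr fun i _ x => ?_))
    exact sub_eq_zero.2 ((z2 i _).2.2 x).symm

theorem mul_of {A : ∀ i, Y i → M → En κ} (hj : 7 ≤ j)
    (h : D.A0 ε j fun i y x => hsL (A i y x)) : D.Mul j A := by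
  simpa only [opL_hsL] using h.toMul opL hj

theorem mul_amp {A : ∀ i, Y i → M → En κ} (hj : 7 ≤ j)
    (h : D.A0 ε j fun i y x => hsL (A i y x)) : D.Mul j fun i y x => amp K (A i y x) := by
  simpa only [ContinuousLinearMap.comp_apply, opL_hsL] using h.toMul (amp K ∘L opL) hj

/-- **The amplified resolvent gains two derivatives.** -/
theorem res_amp (hF : D.FF G) (hB : D.RB (Eu κ) G) (hE : D.RE (Eu κ) G) (hI : Cys97.Inv D G)
    (hl : 6 ≤ l) {A : ∀ i, Y i → ι → M → En κ}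
    (hA : ∀ c, D.A0 False (l + 1) fun i y x => hsL (A i y c x))
    (hs : ∀ i y c x, Skew (A i y c x)) {s : ∀ i, Y i → M → Fm κ K} (h : D.A0 ε l s) :
    D.A0 ε (l + 2) fun i y => (G i (D.pt i y)).res (aA K (A i y)) (s i y) := by
  have m := fun c => mul_of (by omega) (hA c)
  obtain ⟨z1, z2⟩ := sz_res_amp hF hE hI (fun c => (m c).sz) hs h.sz
  obtain ⟨R, r1, r2⟩ := exists_inv_amp (K := K) hF hB (by omega) m hs
  exact res_of hF (by omega) (fun c => mul_amp (by omega) (hA c))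
    (fun i y c x => skew_amp (hs i y c x)) h z1 z2 r1 r2

variable (I M ι) in
/-- **CYS-ENG** -/
theorem eng : Cys97.EngStmt I M ι := by
  intro κ K J _ _ _ _ _ X Y _ _ D G A j hj hF hB hE hI hA hs
  refine ⟨hj, fun h => ?_, fun h => h.nab hF (by omega) fun c => mul_amp (by omega) (hA c)⟩
  obtain ⟨l, rfl⟩ : ∃ l, j = l + 1 := ⟨j - 1, by omega⟩
  exact res_amp hF hB hE hI (by omega) hA hs (h.lower (by omega) l.le_succ)

end Crest.Agent.X212.Eng12
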